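import Vale.Agent.Lib.Common.PNT.Analytic

/-! Wiener-Ikehara: the Tauberian part. -/

open MeasureTheory Filter Topology Set

namespace Vale.Agent.Lib.Common.PNT

lemma integrable_K_comp {l : ℝ} (hl : 0 < l) (y : ℝ) : Integrable (fun t : ℝ => K (l * (y - t))) := by
  have h1 : Integrable (fun t : ℝ => K (l * t)) := K_integrable.comp_mul_left' hl.ne'
  exact h1.comp_sub_left y

lemma integral_K_comp {l : ℝ} (hl : 0 < l) (y : ℝ) :
    ∫ t, K (l * (y - t)) = l⁻¹ * ∫ x, K x := by
  rw [integral_sub_left_eq_self (fun t => K (l * t)) volume y]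
  rw [Measure.integral_comp_mul_left, abs_of_pos (inv_pos.2 hl), smul_eq_mul]

lemma integral_K_window {l : ℝ} (hl : 0 < l) (y d : ℝ) :
    ∫ t in (y - d)..(y + d), K (l * (y - t)) = l⁻¹ * ∫ x in (-(l * d))..(l * d), K x := by
  have h1 := intervalIntegral.integral_comp_sub_left (a := y - d) (b := y + d)
    (fun t => K (l * t)) y
  rw [h1, intervalIntegral.integral_comp_mul_left _ hl.ne', smul_eq_mul]
  congr 2 <;> ring

lemma integral_K_half_tendsto {l : ℝ} (hl : 0 < l) :
    Tendsto (fun y : ℝ => ∫ t in Ioi (0:ℝ), K (l * (y - t))) atTop (𝓝 (l⁻¹ * ∫ x, K x)) := by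
  have hEq : ∀ y : ℝ, ∫ t in Ioi (0:ℝ), K (l * (y - t))
      = ∫ t, (Iio y).indicator (fun t => K (l * t)) t := by
    intro y
    rw [← integral_indicator measurableSet_Ioi]
    rw [← integral_sub_left_eq_self (fun t => (Iio y).indicator (fun t => K (l * t)) t) volume y]
    refine integral_congr_ae (Eventually.of_forall fun t => ?_)
    simp only
    by_cases ht : 0 < t
    · rw [indicator_of_mem (mem_Ioi.2 ht), indicator_of_mem (by simpa using ht)]
    · rw [indicator_of_notMem (by simpa using ht), indicator_of_notMem (by simpa using ht)]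
  have hK1 : Integrable (fun t : ℝ => K (l * t)) := K_integrable.comp_mul_left' hl.ne'
  have hval : ∫ t, K (l * t) = l⁻¹ * ∫ x, K x := by
    rw [Measure.integral_comp_mul_left, abs_of_pos (inv_pos.2 hl), smul_eq_mul]
  rw [← hval]
  simp_rw [hEq]
  refine tendsto_integral_filter_of_dominated_convergence (fun t => K (l * t)) ?_ ?_ hK1 ?_
  · exact Eventually.of_forall fun y => hK1.aestronglyMeasurable.indicator measurableSet_Iio
  · refine Eventually.of_forall fun y => Eventually.of_forall fun t => ?_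
    by_cases ht : t ∈ Iio y
    · rw [indicator_of_mem ht, Real.norm_of_nonneg (K_nonneg _)]
    · rw [indicator_of_notMem ht, norm_zero]; exact K_nonneg _
  · refine Eventually.of_forall fun t => ?_
    refine tendsto_const_nhds.congr' ?_
    filter_upwards [eventually_gt_atTop t] with y hy
    rw [indicator_of_mem (mem_Iio.2 hy)]

section
variable {B : ℝ → ℝ} {M A : ℝ}

lemma avg_lower (hm : Measurable B) (hB0 : ∀ t, 0 ≤ B t) (hBM : ∀ t, B t ≤ M)
    (hmono : ∀ t t', t ≤ t' → B t * Real.exp (t - t') ≤ B t')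
    {l d y : ℝ} (hl : 0 < l) (hd : 0 < d) (hy : d ≤ y) :
    B (y - d) * Real.exp (-(2 * d)) * ∫ x in (-(l * d))..(l * d), K x
      ≤ l * ∫ t in Ioi (0:ℝ), B t * K (l * (y - t)) := by
  have hKi := integrable_K_comp hl y
  have hBK : Integrable (fun t => B t * K (l * (y - t))) :=
    hKi.bdd_mul (c := M) hm.aestronglyMeasurable
      (Eventually.of_forall fun t => by rw [Real.norm_of_nonneg (hB0 t)]; exact hBM t)
  have h1 : ∫ t in Ioc (y - d) (y + d), B t * K (l * (y - t))
      ≤ ∫ t in Ioi (0:ℝ), B t * K (l * (y - t)) := by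
    refine setIntegral_mono_set hBK.integrableOn ?_ ?_
    · exact Eventually.of_forall fun t => mul_nonneg (hB0 t) (K_nonneg _)
    · refine Eventually.of_forall fun t ht => ?_
      have := ht.1
      exact mem_Ioi.2 (show (0:ℝ) < t by linarith)
  have h2 : ∫ t in Ioc (y - d) (y + d), (B (y - d) * Real.exp (-(2 * d))) * K (l * (y - t))
      ≤ ∫ t in Ioc (y - d) (y + d), B t * K (l * (y - t)) := by
    refine setIntegral_mono_on (hKi.const_mul _).integrableOn hBK.integrableOn measurableSet_Ioc ?_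
    intro t ht
    refine mul_le_mul_of_nonneg_right ?_ (K_nonneg _)
    refine le_trans ?_ (hmono (y - d) t ht.1.le)
    refine mul_le_mul_of_nonneg_left (Real.exp_le_exp.2 ?_) (hB0 _)
    linarith [ht.2]
  rw [integral_const_mul, ← intervalIntegral.integral_of_le (by linarith), integral_K_window hl] at h2
  calc B (y - d) * Real.exp (-(2 * d)) * ∫ x in (-(l * d))..(l * d), K x
      = l * (B (y - d) * Real.exp (-(2 * d)) * (l⁻¹ * ∫ x in (-(l * d))..(l * d), K x)) := by
        field_simp
    _ ≤ _ := mul_le_mul_of_nonneg_left (h2.trans h1) hl.le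

lemma avg_upper (hm : Measurable B) (hB0 : ∀ t, 0 ≤ B t) (hBM : ∀ t, B t ≤ M)
    (hmono : ∀ t t', t ≤ t' → B t * Real.exp (t - t') ≤ B t')
    {l d y : ℝ} (hl : 0 < l) (hd : 0 < d) :
    l * ∫ t in Ioi (0:ℝ), B t * K (l * (y - t)) ≤
      B (y + d) * Real.exp (2 * d) * (∫ x in (-(l * d))..(l * d), K x)
        + M * ((∫ x, K x) - ∫ x in (-(l * d))..(l * d), K x) := by
  have hKi := integrable_K_comp hl y
  have hBK : Integrable (fun t => B t * K (l * (y - t))) :=
    hKi.bdd_mul (c := M) hm.aestronglyMeasurable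
      (Eventually.of_forall fun t => by rw [Real.norm_of_nonneg (hB0 t)]; exact hBM t)
  have h1 : ∫ t in Ioi (0:ℝ), B t * K (l * (y - t)) ≤ ∫ t, B t * K (l * (y - t)) := by
    refine setIntegral_le_integral hBK ?_
    exact Eventually.of_forall fun t => mul_nonneg (hB0 t) (K_nonneg _)
  have h2 : ∫ t, B t * K (l * (y - t))
      = (∫ t in Ioc (y - d) (y + d), B t * K (l * (y - t)))
        + ∫ t in (Ioc (y - d) (y + d))ᶜ, B t * K (l * (y - t)) :=
    (integral_add_compl measurableSet_Ioc hBK).symm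
  have h3 : ∫ t in Ioc (y - d) (y + d), B t * K (l * (y - t))
      ≤ ∫ t in Ioc (y - d) (y + d), (B (y + d) * Real.exp (2 * d)) * K (l * (y - t)) := by
    refine setIntegral_mono_on hBK.integrableOn (hKi.const_mul _).integrableOn measurableSet_Ioc ?_
    intro t ht
    refine mul_le_mul_of_nonneg_right ?_ (K_nonneg _)
    have h := hmono t (y + d) ht.2
    have hexp : B t = B t * Real.exp (t - (y + d)) * Real.exp (y + d - t) := by
      rw [mul_assoc, ← Real.exp_add]
      simp
    rw [hexp]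
    refine mul_le_mul h (Real.exp_le_exp.2 ?_) (Real.exp_pos _).le (hB0 _)
    linarith [ht.1]
  have h4 : ∫ t in (Ioc (y - d) (y + d))ᶜ, B t * K (l * (y - t))
      ≤ ∫ t in (Ioc (y - d) (y + d))ᶜ, M * K (l * (y - t)) := by
    refine setIntegral_mono_on hBK.integrableOn (hKi.const_mul _).integrableOn
      measurableSet_Ioc.compl ?_
    intro t _
    exact mul_le_mul_of_nonneg_right (hBM t) (K_nonneg _)
  have h5 : ∫ t in (Ioc (y - d) (y + d))ᶜ, K (l * (y - t))
      = l⁻¹ * (∫ x, K x) - l⁻¹ * ∫ x in (-(l * d))..(l * d), K x := by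
    rw [← integral_K_comp hl y, ← integral_K_window hl y d,
      intervalIntegral.integral_of_le (by linarith),
      ← integral_add_compl (s := Ioc (y - d) (y + d)) measurableSet_Ioc hKi]
    ring
  have h6 : ∫ t in Ioc (y - d) (y + d), K (l * (y - t)) = l⁻¹ * ∫ x in (-(l * d))..(l * d), K x := by
    rw [← intervalIntegral.integral_of_le (by linarith), integral_K_window hl]
  rw [integral_const_mul, h6] at h3
  rw [integral_const_mul, h5] at h4
  calc l * ∫ t in Ioi (0:ℝ), B t * K (l * (y - t))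
      ≤ l * (B (y + d) * Real.exp (2 * d) * (l⁻¹ * ∫ x in (-(l * d))..(l * d), K x)
        + M * (l⁻¹ * (∫ x, K x) - l⁻¹ * ∫ x in (-(l * d))..(l * d), K x)) :=
        mul_le_mul_of_nonneg_left (by linarith) hl.le
    _ = _ := by field_simp

/-- **Wiener-Ikehara**, integral version. -/
theorem tauber (hm : Measurable B) (hB0 : ∀ t, 0 ≤ B t) (hBM : ∀ t, B t ≤ M)
    (hmono : ∀ t t', t ≤ t' → B t * Real.exp (t - t') ≤ B t')
    {G : ℂ → ℂ} (hGc : ContinuousOn G {z | 0 ≤ z.re})
    (hG : ∀ z : ℂ, 0 < z.re →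
      G z = ∫ t in Ioi (0:ℝ), ((B t - A : ℝ) : ℂ) * Complex.exp (-(z * t))) :
    Tendsto B atTop (𝓝 A) := by
  set C := ∫ x, K x with hC
  have hCpos : 0 < C := K_int_pos
  have hU : ∀ l : ℝ, 0 < l →
      Tendsto (fun y => l * ∫ t in Ioi (0:ℝ), B t * K (l * (y - t))) atTop (𝓝 (A * C)) := by
    intro l hl
    have hbd : ∀ t, |B t - A| ≤ M + |A| := fun t => by
      refine (abs_sub _ _).trans ?_
      rw [abs_of_nonneg (hB0 t)]
      linarith [hBM t]
    have h1 := average_tendsto_zero (hm.sub_const A) hbd hGc hG hl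
    have h2 := (integral_K_half_tendsto hl).const_mul A
    have h3 := (h1.add h2).const_mul l
    have h4 : l * (0 + A * (l⁻¹ * ∫ x, K x)) = A * C := by
      rw [← hC]; field_simp; ring
    rw [h4] at h3
    refine h3.congr fun y => ?_
    congr 1
    have hKi := integrable_K_comp hl y
    rw [← integral_const_mul, ← integral_add]
    · refine integral_congr_ae (Eventually.of_forall fun t => ?_)
      simp only
      ring
    · exact (hKi.bdd_mul (c := M + |A|) (hm.sub_const A).aestronglyMeasurable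
        (Eventually.of_forall fun t => hbd t)).integrableOn
    · exact (hKi.const_mul A).integrableOn
  -- sequences
  have hdl : ∀ n : ℕ, ((n:ℝ) + 1) ^ 2 * ((n:ℝ) + 1)⁻¹ = (n:ℝ) + 1 := fun n => by
    field_simp
  have hd0 : Tendsto (fun n : ℕ => ((n:ℝ) + 1)⁻¹) atTop (𝓝 0) := by
    simpa [one_div] using tendsto_one_div_add_atTop_nhds_zero_nat (𝕜 := ℝ)
  have hR : Tendsto (fun n : ℕ => (n:ℝ) + 1) atTop atTop :=
    tendsto_atTop_add_const_right _ _ tendsto_natCast_atTop_atTop
  have hCR : Tendsto (fun n : ℕ => ∫ x in (-((n:ℝ) + 1))..((n:ℝ) + 1), K x) atTop (𝓝 C) :=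
    intervalIntegral_tendsto_integral K_integrable (tendsto_neg_atTop_atBot.comp hR) hR
  refine tendsto_order.2 ⟨fun A' hA' => ?_, fun A' hA' => ?_⟩
  · -- lower bound
    have hlim : Tendsto (fun n : ℕ => A' * Real.exp (2 * ((n:ℝ) + 1)⁻¹) *
        (∫ x in (-((n:ℝ) + 1))..((n:ℝ) + 1), K x)
        + M * (C - ∫ x in (-((n:ℝ) + 1))..((n:ℝ) + 1), K x)) atTop
        (𝓝 (A' * Real.exp (2 * 0) * C + M * (C - C))) := by
      refine Tendsto.add (Tendsto.mul (Tendsto.const_mul _ ?_) hCR) ((hCR.const_sub C).const_mul M)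
      exact (Real.continuous_exp.tendsto _).comp (hd0.const_mul 2)
    have hlt : A' * Real.exp (2 * 0) * C + M * (C - C) < A * C := by
      simp only [mul_zero, Real.exp_zero, mul_one, sub_self, add_zero]
      exact mul_lt_mul_of_pos_right hA' hCpos
    obtain ⟨n, hn⟩ := (hlim.eventually (gt_mem_nhds hlt)).exists
    set d : ℝ := ((n:ℝ) + 1)⁻¹ with hd
    set l : ℝ := ((n:ℝ) + 1) ^ 2 with hl
    have hdpos : 0 < d := by positivity
    have hlpos : 0 < l := by positivity
    have h1 := (hU l hlpos).eventually (lt_mem_nhds hn)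
    have h2 : Tendsto (fun y : ℝ => y - d) atTop atTop := tendsto_atTop_add_const_right _ _ tendsto_id
    filter_upwards [h2.eventually h1] with y hy
    have h3 := avg_upper hm hB0 hBM hmono (y := y - d) hlpos hdpos
    rw [hdl n] at h3
    have h4 := hy.trans_le h3
    have h5 : (0:ℝ) ≤ Real.exp (2 * d) * ∫ x in (-((n:ℝ) + 1))..((n:ℝ) + 1), K x := by
      refine mul_nonneg (Real.exp_pos _).le ?_
      refine intervalIntegral.integral_nonneg ?_ fun x _ => K_nonneg x
      have : (0:ℝ) < (n:ℝ) + 1 := by positivity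
      linarith
    rw [sub_add_cancel] at h4
    by_contra hcon
    push Not at hcon
    have h6 : B y * (Real.exp (2 * d) * ∫ x in (-((n:ℝ) + 1))..((n:ℝ) + 1), K x)
      ≤ A' * (Real.exp (2 * d) * ∫ x in (-((n:ℝ) + 1))..((n:ℝ) + 1), K x) :=
      mul_le_mul_of_nonneg_right hcon h5
    linarith
  · -- upper bound
    have hlim : Tendsto (fun n : ℕ => A' * Real.exp (-(2 * ((n:ℝ) + 1)⁻¹)) *
        (∫ x in (-((n:ℝ) + 1))..((n:ℝ) + 1), K x)) atTop
        (𝓝 (A' * Real.exp (-(2 * 0)) * C)) := by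
      refine Tendsto.mul (Tendsto.const_mul _ ?_) hCR
      exact (Real.continuous_exp.tendsto _).comp (hd0.const_mul 2).neg
    have hlt : A * C < A' * Real.exp (-(2 * 0)) * C := by
      simp only [mul_zero, neg_zero, Real.exp_zero, mul_one]
      exact mul_lt_mul_of_pos_right hA' hCpos
    obtain ⟨n, hn⟩ := (hlim.eventually (lt_mem_nhds hlt)).exists
    set d : ℝ := ((n:ℝ) + 1)⁻¹ with hd
    set l : ℝ := ((n:ℝ) + 1) ^ 2 with hl
    have hdpos : 0 < d := by positivity
    have hlpos : 0 < l := by positivity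
    have h1 := (hU l hlpos).eventually (gt_mem_nhds hn)
    have h2 : Tendsto (fun y : ℝ => y + d) atTop atTop := tendsto_atTop_add_const_right _ _ tendsto_id
    filter_upwards [h2.eventually h1, eventually_ge_atTop (0:ℝ)] with y hy hy0
    have h3 := avg_lower hm hB0 hBM hmono (y := y + d) hlpos hdpos (by linarith)
    rw [hdl n] at h3
    have h4 := h3.trans_lt hy
    have h5 : (0:ℝ) ≤ Real.exp (-(2 * d)) * ∫ x in (-((n:ℝ) + 1))..((n:ℝ) + 1), K x := by
      refine mul_nonneg (Real.exp_pos _).le ?_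
      refine intervalIntegral.integral_nonneg ?_ fun x _ => K_nonneg x
      have : (0:ℝ) < (n:ℝ) + 1 := by positivity
      linarith
    rw [add_sub_cancel_right] at h4
    by_contra hcon
    push Not at hcon
    have h6 : A' * (Real.exp (-(2 * d)) * ∫ x in (-((n:ℝ) + 1))..((n:ℝ) + 1), K x)
      ≤ B y * (Real.exp (-(2 * d)) * ∫ x in (-((n:ℝ) + 1))..((n:ℝ) + 1), K x) :=
      mul_le_mul_of_nonneg_right hcon h5
    linarith

end

end Vale.Agent.Lib.Common.PNT
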