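import Vale.Agent.Lib.Common.PNT.Tauber

/-! The Wiener-Ikehara theorem for Dirichlet series with nonnegative coefficients and
partial sums `O(x)`. -/

open MeasureTheory Filter Topology Set

namespace Vale.Agent.Lib.Common.PNT

/-- **Wiener-Ikehara theorem** (with a Chebyshev type upper bound as hypothesis). -/
theorem wienerIkehara (f : ℕ → ℝ) (hf : ∀ n, 0 ≤ f n) {M A : ℝ}
    (hM : ∀ x : ℝ, 1 ≤ x → ∑ k ∈ Finset.Icc 1 ⌊x⌋₊, f k ≤ M * x)
    {G : ℂ → ℂ} (hG : ContinuousOn G {s | 1 ≤ s.re})
    (hGs : ∀ s : ℂ, 1 < s.re → G s = LSeries (fun n => (f n : ℂ)) s - A / (s - 1)) :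
    Tendsto (fun x : ℝ => (∑ k ∈ Finset.Icc 1 ⌊x⌋₊, f k) / x) atTop (𝓝 A) := by
  set S : ℝ → ℝ := fun x => ∑ k ∈ Finset.Icc 1 ⌊x⌋₊, f k with hS
  have hS0 : ∀ x, 0 ≤ S x := fun x => Finset.sum_nonneg fun k _ => hf k
  have hSmono : Monotone S := by
    intro x y hxy
    refine Finset.sum_le_sum_of_subset_of_nonneg ?_ fun k _ _ => hf k
    exact Finset.Icc_subset_Icc_right (Nat.floor_mono hxy)
  have hM0 : 0 ≤ M := by
    have := hM 1 le_rfl
    have h2 := hS0 1
    simp only [hS] at h2
    linarith
  set B : ℝ → ℝ := fun t => S (Real.exp t) * Real.exp (-t) with hB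
  have hBm : Measurable B := by
    refine Measurable.mul ?_ (Continuous.measurable (by fun_prop))
    exact (hSmono.comp Real.exp_monotone).measurable
  have hB0 : ∀ t, 0 ≤ B t := fun t => mul_nonneg (hS0 _) (Real.exp_pos _).le
  have hBM : ∀ t, B t ≤ M := by
    intro t
    by_cases ht : 0 ≤ t
    · have h1 := hM (Real.exp t) (Real.one_le_exp ht)
      calc B t ≤ (M * Real.exp t) * Real.exp (-t) :=
            mul_le_mul_of_nonneg_right h1 (Real.exp_pos _).le
        _ = M := by rw [mul_assoc, ← Real.exp_add]; simp
    · have h1 : ⌊Real.exp t⌋₊ = 0 := by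
        rw [Nat.floor_eq_zero]
        rw [← Real.exp_zero]
        exact Real.exp_lt_exp.2 (not_le.1 ht)
      have h2 : S (Real.exp t) = 0 := by simp [hS, h1]
      have h3 : B t = 0 := by simp [hB, h2]
      rw [h3]; exact hM0
  have hBmono : ∀ t t', t ≤ t' → B t * Real.exp (t - t') ≤ B t' := by
    intro t t' htt
    have : B t * Real.exp (t - t') = S (Real.exp t) * Real.exp (-t') := by
      simp only [hB]
      rw [mul_assoc, ← Real.exp_add]
      congr 2
      ring
    rw [this]
    exact mul_le_mul_of_nonneg_right (hSmono (Real.exp_le_exp.2 htt)) (Real.exp_pos _).le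
  have hO : (fun n : ℕ => ∑ k ∈ Finset.Icc 1 n, f k) =O[atTop] fun n : ℕ => (n : ℝ) ^ (1:ℝ) := by
    refine Asymptotics.IsBigO.of_bound M ?_
    filter_upwards [eventually_ge_atTop 1] with n hn
    have h1 := hM n (by exact_mod_cast hn)
    rw [Nat.floor_natCast] at h1
    rw [Real.rpow_one, Real.norm_of_nonneg (Finset.sum_nonneg fun k _ => hf k),
      Real.norm_of_nonneg (Nat.cast_nonneg n)]
    exact h1
  have hbd : ∀ t, |B t - A| ≤ M + |A| := fun t => by
    refine (abs_sub _ _).trans ?_
    rw [abs_of_nonneg (hB0 t)]
    linarith [hBM t]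
  have key : Tendsto B atTop (𝓝 A) := by
    refine tauber (M := M) (G := fun z => (G (1 + z) - A) / (1 + z)) hBm hB0 hBM hBmono ?_ ?_
    · refine ContinuousOn.div ?_ (Continuous.continuousOn (by fun_prop)) ?_
      · refine ContinuousOn.sub ?_ continuousOn_const
        refine hG.comp (Continuous.continuousOn (by fun_prop)) ?_
        intro z hz
        have hz' : 0 ≤ z.re := hz
        simp [hz']
      · intro z hz h0
        have hz' : 0 ≤ z.re := hz
        have := congrArg Complex.re h0
        simp at this
        linarith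
    · intro z hz
      have hs : 1 < (1 + z).re := by simp [hz]
      have hs0 : (1 + z) ≠ 0 := by
        intro h0
        rw [h0] at hs
        simp at hs
        linarith
      have hz0 : z ≠ 0 := by
        rintro rfl
        simp at hz
      have hL : LSeries (fun n => (f n : ℂ)) (1 + z)
          = (1 + z) * ∫ t in Ioi (0:ℝ), (B t : ℂ) * Complex.exp (-(z * t)) := by
        rw [LSeries_eq_mul_integral_of_nonneg f zero_le_one hs hO hf]
        congr 1
        have himg : Real.exp '' (Ioi (0:ℝ)) = Ioi (1:ℝ) := by
          ext x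
          constructor
          · rintro ⟨t, ht, rfl⟩
            exact Real.one_lt_exp_iff.2 ht
          · intro hx
            exact ⟨Real.log x, Real.log_pos hx, Real.exp_log (lt_trans one_pos hx)⟩
        rw [← himg, integral_image_eq_integral_abs_deriv_smul measurableSet_Ioi
          (fun x _ => (Real.hasDerivAt_exp x).hasDerivWithinAt) (Real.exp_injective.injOn)]
        refine integral_congr_ae (Eventually.of_forall fun t => ?_)
        simp only [hB, hS]
        rw [abs_of_pos (Real.exp_pos t), Complex.real_smul]
        have h1 : ((Real.exp t : ℝ) : ℂ) ^ (-((1 + z) + 1)) = Complex.exp (-((1 + z) + 1) * t) := by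
          rw [Complex.cpow_def_of_ne_zero (by exact_mod_cast (Real.exp_pos t).ne'),
            ← Complex.ofReal_log (Real.exp_pos t).le, Real.log_exp]
          congr 1
          ring
        rw [h1]
        push_cast
        have h2 : Complex.exp t * ((∑ k ∈ Finset.Icc 1 ⌊Real.exp t⌋₊, (f k : ℂ)) *
            Complex.exp (-((1 + z) + 1) * t))
            = (∑ k ∈ Finset.Icc 1 ⌊Real.exp t⌋₊, (f k : ℂ)) *
              (Complex.exp t * Complex.exp (-((1 + z) + 1) * t)) := by ring
        rw [h2, mul_assoc, ← Complex.exp_add, ← Complex.exp_add]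
        congr 2
        ring
      have hre : (-z).re < 0 := by simpa using hz
      have hA : ∫ t in Ioi (0:ℝ), (A : ℂ) * Complex.exp (-(z * t)) = A / z := by
        rw [integral_const_mul]
        have h1 : ∫ t in Ioi (0:ℝ), Complex.exp (-(z * t)) = ∫ t in Ioi (0:ℝ), Complex.exp (-z * t) := by
          refine integral_congr_ae (Eventually.of_forall fun t => ?_)
          simp only
          congr 1
          ring
        rw [h1, integral_exp_mul_complex_Ioi hre]
        simp
        field_simp
      have hEint : IntegrableOn (fun t : ℝ => Complex.exp (-(z * t))) (Ioi 0) := by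
        refine (integrableOn_exp_mul_complex_Ioi hre 0).congr_fun ?_ measurableSet_Ioi
        intro t _
        simp only
        congr 1
        ring
      have hBint : IntegrableOn (fun t : ℝ => (B t : ℂ) * Complex.exp (-(z * t))) (Ioi 0) := by
        refine Integrable.bdd_mul (c := M) hEint
          (Complex.measurable_ofReal.comp hBm).aestronglyMeasurable ?_
        refine Eventually.of_forall fun t => ?_
        rw [Complex.norm_real, Real.norm_of_nonneg (hB0 t)]
        exact hBM t
      have hsplit : ∫ t in Ioi (0:ℝ), ((B t - A : ℝ) : ℂ) * Complex.exp (-(z * t))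
          = (∫ t in Ioi (0:ℝ), (B t : ℂ) * Complex.exp (-(z * t))) - A / z := by
        rw [← hA, ← integral_sub hBint (hEint.const_mul _)]
        refine integral_congr_ae (Eventually.of_forall fun t => ?_)
        simp only
        push_cast
        ring
      rw [hsplit, hGs _ hs, hL]
      have : (1 + z - 1) = z := by ring
      rw [this]
      field_simp
      ring
  have h1 := key.comp Real.tendsto_log_atTop
  refine h1.congr' ?_
  filter_upwards [eventually_gt_atTop (0:ℝ)] with x hx
  simp only [Function.comp, hB]
  rw [Real.exp_neg, Real.exp_log hx, div_eq_mul_inv]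

end Vale.Agent.Lib.Common.PNT
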